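import Vale.Agent.P216.H456Z.HtL

/-!
# P216-B7, row Z10, (A), (A') of the frame of `H808/Z10Props.lean`
-/

set_option linter.all false

open Set Filter Topology BoundedContinuousFunction

namespace Vale.Agent.P216.H456Z

open Vale.Agent.P216.B7 Vale.Agent.P216.PS Vale.Agent.P216.H971Z Vale.Agent.P216.H808
open Vale.Agent.P216.H456 (PF)

variable {M : Type} [MetricSpace M] {h : C(M, Circle)} {r s r' s' β m m' t t' : ℝ}

theorem isHt_HT {b : M × ℝ} {w : ℝ →ᵇ M} {f : ℝ → ℝ} (H : IsHt h b w f) : HT h w (f 0) b.2 :=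
  ⟨f, H.1, fun u => (H.2.1 u).symm, rfl, H.2.2⟩

theorem HT_isHt {b : M × ℝ} {w : ℝ →ᵇ M} (H : HT h w r b.2) : ∃ f, IsHt h b w f ∧ f 0 = r := by
  obtain ⟨θ, c1, e1, z1, T, t1⟩ := H
  exact ⟨θ, ⟨c1, fun u => (e1 u).symm, T, t1⟩, z1⟩

/-- The label, from a height. -/
theorem lab_eq {b : M × ℝ} {w : ℝ →ᵇ M} (H : HT h w r b.2) : lab h b w = (w 0, r) := by
  obtain ⟨f, hf, -⟩ := HT_isHt H
  have h1 : ∃ f, IsHt h b w f := ⟨f, hf⟩
  rw [lab, dif_pos h1]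
  exact Prod.ext rfl ((isHt_HT h1.choose_spec).unique H)

theorem Lf_HT {b : M × ℝ} {w : ℝ →ᵇ M} (hw : w ∈ PF b.1 t) :
    Lf h t r b.2 w ↔ HT h w r b.2 :=
  ⟨fun H => H.toHT, fun H => HT_lf H (fun u hu => by rw [eq_left hw hu, eq_left hw le_rfl])
    fun u hu => by rw [eq_right hw hu, eq_right hw le_rfl]⟩

section compact

variable [CompactSpace M]

theorem exists_ht (h : C(M, Circle)) {b : M × ℝ} (hb : b ∈ Xt h) {w : ℝ →ᵇ M}
    (hw : w ∈ PF b.1 t) : ∃ r, HT h w r b.2 := by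
  obtain ⟨r, hr⟩ := exists_mem_XZ hb hw
  exact ⟨r, hr.2.toHT⟩

theorem HT_lab (h : C(M, Circle)) {b : M × ℝ} (hb : b ∈ Xt h) {w : ℝ →ᵇ M}
    (hw : w ∈ PF b.1 t) : HT h w (lab h b w).2 b.2 := by
  obtain ⟨r, hr⟩ := exists_ht h hb hw
  rwa [lab_eq hr]

theorem lab_fst {b : M × ℝ} {w : ℝ →ᵇ M} : (lab h b w).1 = w 0 := rfl

/-- The path with its label is in `XZ`. -/
theorem lab_mem_XZ {b : M × ℝ} (hb : b ∈ Xt h) {w : ℝ →ᵇ M}
    (hw : w ∈ PF b.1 t) : (w, (lab h b w).2) ∈ XZ h b t :=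
  ⟨hw, (Lf_HT hw).2 (HT_lab h hb hw)⟩

theorem stz_lab {b : M × ℝ} {w : ℝ →ᵇ M} : stz (w, (lab h b w).2) = lab h b w := rfl

/-- An element of `XZ` is a path with its label. -/
theorem XZ_lab {b : M × ℝ} {z : (ℝ →ᵇ M) × ℝ} (hz : z ∈ XZ h b t) :
    z.2 = (lab h b z.1).2 ∧ stz z = lab h b z.1 := by
  have h1 := lab_eq (b := b) hz.2.toHT
  rw [h1]
  exact ⟨rfl, rfl⟩

/-- **The fibres of the two frames.** -/
theorem Fb_eq_PZ {b v : M × ℝ} (hb : b ∈ Xt h) : Fb h b v t = PZ h v b t := by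
  ext w
  constructor
  · rintro ⟨hw, rfl⟩
    exact ⟨H456.mem_PF_iff.1 hw, (lab_mem_XZ hb hw).2⟩
  · rintro ⟨hw, hl⟩
    refine ⟨H456.P_subset_PF hw, ?_⟩
    rw [lab_eq hl.toHT, eq_left hw le_rfl]

/-- **A**. -/
theorem aGoal : AGoal := by
  intro M _ _ h b hb t ht
  refine ⟨fun w hw => ?_, fun w hw f hf => lab_eq (isHt_HT hf), ?_, fun ε hε => ?_⟩
  · obtain ⟨r, hr⟩ := exists_ht h hb hw
    obtain ⟨f, hf, -⟩ := HT_isHt hr
    exact ⟨f, hf⟩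
  · obtain ⟨R, hR⟩ := f1Goal (M := M) (h := h) b hb t
    exact ⟨R, fun w hw => hR _ (lab_mem_XZ hb hw)⟩
  · obtain ⟨δ, hδ, H⟩ := lf_modulus h hε
    refine ⟨min δ ε, lt_min hδ hε, fun w hw w' hw' hd => ?_⟩
    rw [Prod.dist_eq]
    refine max_lt (((BoundedContinuousFunction.dist_coe_le_dist 0).trans_lt hd).trans_le
      (min_le_right _ _)) ?_
    rw [dist_comm, Real.dist_eq]
    exact H b.1 t t b.2 _ _ w w' hw hw' (lab_mem_XZ hb hw).2 (lab_mem_XZ hb hw').2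
      (hd.le.trans (min_le_left _ _))

/-- **A'**. -/
theorem aCatGoal : ACatGoal := by
  intro M _ _ h b hb v hv D t hD ht c hc w hw
  obtain ⟨hw1, hw2⟩ := hw
  have h1 : w 0 = v.1 := congrArg Prod.fst hw2
  have hw' : w ∈ PZ h v b t := by
    rw [← Fb_eq_PZ hb]
    exact ⟨hw1, hw2⟩
  have hc' : c ∈ PZ h (lab h v c) v D := ⟨H456.mem_PF_iff.1 hc, (lab_mem_XZ hv hc).2⟩
  have h2 := cat_mem_PZ hD ht hc' hw'
  exact ⟨H456.P_subset_PF h2.1, by rw [lab_eq h2.2.toHT, eq_left h2.1 le_rfl]⟩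

end compact

end Vale.Agent.P216.H456Z
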