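import Vale.Agent.P216.B7.Props
import Vale.Agent.P216.H456.PTriv
import Mathlib.Analysis.SpecialFunctions.Complex.Circle
import Mathlib.Analysis.SpecialFunctions.Complex.Arctan

/-!
# P216-B7, row Z10: heights

`HT h w r β`: the lift (for `h : C(M, Circle)`) of the path `w : ℝ → M` which is eventually `β`
starts at the height `r`. `dlt h x a`: the small difference of the heights of two near points.
-/

set_option linter.all false

open Set Filter Topology

namespace Vale.Agent.P216.H456Z

open Vale.Agent.P216.B7 Vale.Agent.P216.PS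

variable {M : Type} [MetricSpace M]

/-! ### The exponential -/

theorem ex_add (a b : ℝ) : ex (a + b) = ex a * ex b := by
  rw [ex, ex, ex, mul_add, Circle.exp_add]

theorem ex_zero : ex 0 = 1 := by rw [ex, mul_zero, Circle.exp_zero]

theorem ex_int (n : ℤ) : ex n = 1 := Circle.exp_two_pi_mul_int n

theorem ex_eq {a b : ℝ} (h : ex a = ex b) : ∃ n : ℤ, a = b + n := by
  obtain ⟨m, hm⟩ := Circle.exp_eq_exp.1 h
  refine ⟨m, ?_⟩
  have hp : (2 * Real.pi) ≠ 0 := by positivity
  have : 2 * Real.pi * a = 2 * Real.pi * (b + m) := by rw [hm]; ring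
  exact mul_left_cancel₀ hp this

theorem continuous_ex : Continuous ex :=
  Circle.exp.continuous.comp (continuous_const.mul continuous_id)

/-- Two continuous lifts which agree at one point are equal. -/
theorem lift_eq {X : Type} [TopologicalSpace X] [PreconnectedSpace X] {f g : X → ℝ}
    (hf : Continuous f) (hg : Continuous g) (h : ∀ x, ex (f x) = ex (g x)) {x₀ : X}
    (h0 : |f x₀ - g x₀| < 1) (x : X) : f x = g x := by
  choose k hk using fun x => ex_eq (h x)
  have hc : Continuous k := by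
    rw [Int.isClosedEmbedding_coe_real.isEmbedding.continuous_iff]
    have : ((fun n : ℤ => (n : ℝ)) ∘ k) = fun t => f t - g t := by
      funext t
      show (k t : ℝ) = _
      rw [hk t]
      ring
    rw [this]
    exact hf.sub hg
  have h1 : k x = k x₀ := PreconnectedSpace.constant inferInstance hc
  have h2 : k x₀ = 0 := by
    have h3 : |((k x₀ : ℤ) : ℝ)| < 1 := by
      have := hk x₀
      rwa [this, add_sub_cancel_left] at h0
    have h4 : |k x₀| < 1 := by exact_mod_cast h3
    exact Int.abs_lt_one_iff.1 h4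
  rw [hk x, h1, h2]
  simp

theorem lift_eqOn {X : Type} [TopologicalSpace X] {S : Set X} (hS : IsPreconnected S) {f g : X → ℝ}
    (hf : ContinuousOn f S) (hg : ContinuousOn g S) (h : ∀ x ∈ S, ex (f x) = ex (g x)) {x₀ : X}
    (hx₀ : x₀ ∈ S) (h0 : |f x₀ - g x₀| < 1) {x : X} (hx : x ∈ S) : f x = g x := by
  haveI := Subtype.preconnectedSpace hS
  exact lift_eq (X := S) (f := fun y => f y) (g := fun y => g y) (hf.comp_continuous
    continuous_subtype_val fun y => y.2) (hg.comp_continuous continuous_subtype_val fun y => y.2)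
    (fun y => h y y.2) (x₀ := ⟨x₀, hx₀⟩) h0 ⟨x, hx⟩

/-! ### The difference of the heights of near points -/

/-- The small height difference. -/
noncomputable def dlt (h : C(M, Circle)) (x a : M) : ℝ :=
  Complex.arg ((h a / h x : Circle) : ℂ) / (2 * Real.pi)

variable {h : C(M, Circle)} {x y a b : M} {r s β : ℝ}

theorem ex_dlt : ex (dlt h x a) = h a / h x := by
  have hp : (2 * Real.pi) ≠ 0 := by positivity
  rw [ex, dlt, mul_div_cancel₀ _ hp]
  exact Circle.exp_arg _

theorem ex_add_dlt (hr : ex r = h x) : ex (r + dlt h x a) = h a := by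
  rw [ex_add, ex_dlt, hr, mul_div_cancel]

theorem dlt_self : dlt h x x = 0 := by
  rw [dlt, div_self', Circle.coe_one, Complex.arg_one, zero_div]

theorem quot_re (hd : dist (h x) (h a) < 1) : 0 < (((h a / h x : Circle) : ℂ)).re := by
  have e1 : ‖((h a / h x : Circle) : ℂ) - 1‖ < 1 := by
    have e2 : ((h a / h x : Circle) : ℂ) - 1 = ((h a : ℂ) - (h x : ℂ)) / (h x : ℂ) := by
      rw [Circle.coe_div, sub_div, div_self (Circle.coe_ne_zero _)]
    rw [e2, norm_div, Circle.norm_coe, div_one, ← dist_eq_norm, dist_comm]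
    exact hd
  have e3 : |(((h a / h x : Circle) : ℂ) - 1).re| < 1 := (Complex.abs_re_le_norm _).trans_lt e1
  rw [Complex.sub_re, Complex.one_re, abs_lt] at e3
  linarith

theorem abs_dlt_lt (hd : dist (h x) (h a) < 1) : |dlt h x a| < 1 / 4 := by
  have h1 := Complex.abs_arg_lt_pi_div_two_iff.2 (Or.inl (quot_re hd))
  have hp := Real.pi_pos
  rw [dlt, abs_div, abs_of_pos (by positivity : 0 < 2 * Real.pi), div_lt_iff₀ (by positivity)]
  linarith

theorem dlt_cont {T : Type} [TopologicalSpace T] {f g : T → M} {t : T} (hf : ContinuousAt f t)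
    (hg : ContinuousAt g t) (hd : dist (h (f t)) (h (g t)) < 1) :
    ContinuousAt (fun t => dlt h (f t) (g t)) t := by
  have e1 : ContinuousAt (fun t => ((h (g t) / h (f t) : Circle) : ℂ)) t :=
    continuous_subtype_val.continuousAt.comp ((h.continuous.continuousAt.comp hg).div'
      (h.continuous.continuousAt.comp hf))
  have e2 : (((h (g t) / h (f t) : Circle) : ℂ)) ∈ Complex.slitPlane := Or.inl (quot_re hd)
  have e3 : ContinuousAt (fun t => Complex.arg ((h (g t) / h (f t) : Circle) : ℂ)) t :=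
    ContinuousAt.comp' (f := fun t => ((h (g t) / h (f t) : Circle) : ℂ))
      (Complex.continuousAt_arg e2) e1
  exact e3.div_const _

theorem continuous_dlt {T : Type} [TopologicalSpace T] {f g : T → M} (hf : Continuous f)
    (hg : Continuous g) (hd : ∀ t, dist (h (f t)) (h (g t)) < 1) :
    Continuous (fun t => dlt h (f t) (g t)) :=
  continuous_iff_continuousAt.2 fun t => dlt_cont hf.continuousAt hg.continuousAt (hd t)

/-- The sheet: two near points of the covering with near heights. -/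
theorem sheet (hx : ex r = h x) (ha : ex s = h a) (hd : dist (h x) (h a) < 1)
    (hrs : |s - r| < 3 / 4) : s = r + dlt h x a := by
  obtain ⟨n, hn⟩ := ex_eq (ha.trans (ex_add_dlt (a := a) hx).symm)
  have h1 := abs_lt.1 (abs_dlt_lt hd)
  have h2 := abs_lt.1 hrs
  have h3 : |(n : ℝ)| < 1 := by
    rw [abs_lt]
    constructor <;> linarith
  have h4 : |n| < 1 := by exact_mod_cast h3
  rw [hn, Int.abs_lt_one_iff.1 h4]
  simp

section compact

variable [CompactSpace M]

/-- the scale of `h` -/
theorem exists_h1 (h : C(M, Circle)) : ∃ δ > 0, ∀ x a : M, dist x a ≤ δ →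
    dist (h x) (h a) < 1 := by
  obtain ⟨δ, hδ, hd⟩ := Metric.uniformContinuous_iff.1
    (CompactSpace.uniformContinuous_of_continuous h.continuous) 1 one_pos
  exact ⟨δ / 2, by positivity, fun x a hxa => hd (hxa.trans_lt (by linarith))⟩

theorem dlt_small (h : C(M, Circle)) {ε : ℝ} (hε : 0 < ε) : ∃ δ > 0, ∀ x a : M, dist x a ≤ δ →
    dist (h x) (h a) < 1 ∧ |dlt h x a| < ε := by
  have hp := Real.pi_pos
  have h1 : ContinuousAt Complex.arg 1 := Complex.continuousAt_arg (Or.inl (by simp))
  rw [Metric.continuousAt_iff] at h1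
  obtain ⟨η, hη, h1⟩ := h1 (ε * (2 * Real.pi)) (by positivity)
  obtain ⟨δ, hδ, hd⟩ := Metric.uniformContinuous_iff.1
    (CompactSpace.uniformContinuous_of_continuous h.continuous) (min 1 η) (lt_min one_pos hη)
  refine ⟨δ / 2, by positivity, fun x a hxa => ?_⟩
  have h2 := hd (hxa.trans_lt (by linarith : δ / 2 < δ))
  refine ⟨h2.trans_le (min_le_left _ _), ?_⟩
  have e1 : dist ((h a / h x : Circle) : ℂ) 1 < η := by
    have e2 : ((h a / h x : Circle) : ℂ) - 1 = ((h a : ℂ) - (h x : ℂ)) / (h x : ℂ) := by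
      rw [Circle.coe_div, sub_div, div_self (Circle.coe_ne_zero _)]
    rw [dist_eq_norm, e2, norm_div, Circle.norm_coe, div_one, ← dist_eq_norm, dist_comm]
    exact h2.trans_le (min_le_right _ _)
  have e3 := h1 e1
  rw [Complex.arg_one, dist_zero_right, Real.norm_eq_abs] at e3
  rw [dlt, abs_div, abs_of_pos (by positivity : 0 < 2 * Real.pi), div_lt_iff₀ (by positivity)]
  exact e3

end compact

/-! ### Heights of paths -/

/-- The lift of `w` which is eventually `β` starts at `r`. -/
def HT (h : C(M, Circle)) (w : ℝ → M) (r β : ℝ) : Prop :=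
  ∃ θ : ℝ → ℝ, Continuous θ ∧ (∀ u, ex (θ u) = h (w u)) ∧ θ 0 = r ∧ ∃ T, ∀ u, T ≤ u → θ u = β

variable {w w' v : ℝ → M} {t m : ℝ}

theorem lift_right {θ : ℝ → ℝ} (c1 : Continuous θ) (e1 : ∀ u, ex (θ u) = h (w u)) {T : ℝ}
    (t1 : ∀ u, T ≤ u → θ u = β) (hw : ∀ u, m ≤ u → w u = w m) {u : ℝ} (hu : m ≤ u) : θ u = β := by
  refine lift_eqOn (isPreconnected_Ici (a := m)) (f := θ) (g := fun _ => β)
    c1.continuousOn continuousOn_const (fun x hx => ?_)
    (x₀ := max m T) (mem_Ici.2 (le_max_left _ _)) ?_ hu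
  · have h1 := t1 (max m T) (le_max_right _ _)
    rw [e1, hw _ hx, ← hw (max m T) (le_max_left _ _), ← e1, h1]
  · rw [t1 _ (le_max_right _ _), sub_self, abs_zero]
    exact one_pos

theorem lift_left {θ : ℝ → ℝ} (c1 : Continuous θ) (e1 : ∀ u, ex (θ u) = h (w u))
    (z1 : θ 0 = r) (hw : ∀ u ≤ 0, w u = w 0) {u : ℝ} (hu : u ≤ 0) : θ u = r := by
  refine lift_eqOn (isPreconnected_Iic (a := (0:ℝ))) (f := θ) (g := fun _ => r)
    c1.continuousOn continuousOn_const (fun x hx => ?_) (x₀ := 0) (mem_Iic.2 le_rfl) ?_ hu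
  · rw [e1, hw _ hx, ← e1, z1]
  · rw [z1, sub_self, abs_zero]
    exact one_pos

theorem HT.mem (H : HT h w r β) : ex r = h (w 0) := by
  obtain ⟨θ, -, h1, h2, -⟩ := H
  rw [← h2, h1]

theorem HT.mem_end (H : HT h w r β) {T : ℝ} (hT : ∀ u, T ≤ u → w u = b) : ex β = h b := by
  obtain ⟨θ, -, h1, -, T', h2⟩ := H
  rw [← h2 (max T T') (le_max_right _ _), h1, hT _ (le_max_left _ _)]

theorem HT.unique (H : HT h w r β) {r' : ℝ} (H' : HT h w r' β) : r = r' := by
  obtain ⟨θ, c1, e1, z1, T, t1⟩ := H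
  obtain ⟨θ', c2, e2, z2, T', t2⟩ := H'
  rw [← z1, ← z2]
  refine lift_eq c1 c2 (fun u => (e1 u).trans (e2 u).symm) (x₀ := max T T') ?_ 0
  rw [t1 _ (le_max_left _ _), t2 _ (le_max_right _ _), sub_self, abs_zero]
  exact one_pos

theorem HT.unique' (H : HT h w r β) {β' : ℝ} (H' : HT h w r β') : β = β' := by
  obtain ⟨θ, c1, e1, z1, T, t1⟩ := H
  obtain ⟨θ', c2, e2, z2, T', t2⟩ := H'
  rw [← t1 _ (le_max_left T T'), ← t2 _ (le_max_right T T')]
  refine lift_eq c1 c2 (fun u => (e1 u).trans (e2 u).symm) (x₀ := 0) ?_ _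
  rw [z1, z2, sub_self, abs_zero]
  exact one_pos

/-- The shift of the lift by an integer. -/
theorem HT.shift (H : HT h w r β) (n : ℤ) : HT h w (r + n) (β + n) := by
  obtain ⟨θ, c1, e1, z1, T, t1⟩ := H
  refine ⟨fun u => θ u + n, c1.add continuous_const, fun u => ?_, by show θ 0 + n = _; rw [z1], T, fun u hu => by
    show θ u + n = _
    rw [t1 u hu]⟩
  rw [ex_add, ex_int, mul_one, e1]

/-- Paths which are near everywhere. -/
theorem HT.close (H : HT h w r β) (hw : Continuous w) (hw' : Continuous w')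
    (hd : ∀ u, dist (h (w u)) (h (w' u)) < 1) {T : ℝ} (hT : ∀ u, T ≤ u → w' u = w u) :
    HT h w' (r + dlt h (w 0) (w' 0)) β := by
  obtain ⟨θ, c1, e1, z1, T', t1⟩ := H
  refine ⟨fun u => θ u + dlt h (w u) (w' u), c1.add (continuous_dlt hw hw' hd),
    fun u => ex_add_dlt (e1 u), by show θ 0 + _ = _; rw [z1], max T T', fun u hu => ?_⟩
  show θ u + dlt h (w u) (w' u) = β
  rw [t1 u ((le_max_right _ _).trans hu), hT u ((le_max_left _ _).trans hu), dlt_self, add_zero]

theorem HT.const (hb : ex β = h b) : HT h (fun _ => b) β β :=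
  ⟨fun _ => β, continuous_const, fun _ => hb, rfl, 0, fun _ _ => rfl⟩

theorem HT.congr (H : HT h w r β) (e : ∀ u, w' u = w u) : HT h w' r β := by
  have : w' = w := funext e
  rwa [this]

/-- A path which stays near its start. -/
theorem HT.short (H : HT h w r β) (hw : Continuous w) (hd : ∀ u, dist (h (w 0)) (h (w u)) < 1)
    {T : ℝ} (hT : ∀ u, T ≤ u → w u = b) : β = r + dlt h (w 0) b := by
  obtain ⟨θ, c1, e1, z1, T', t1⟩ := H
  have e := lift_eq c1 (g := fun u => r + dlt h (w 0) (w u))
    (continuous_const.add (continuous_dlt continuous_const hw hd)) (fun u => (e1 u).trans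
      (ex_add_dlt (by rw [← z1, e1])).symm) (x₀ := 0) (by
        rw [z1, dlt_self, add_zero, sub_self, abs_zero]
        exact one_pos) (max T T')
  rw [t1 _ (le_max_right _ _), hT _ (le_max_left _ _)] at e
  exact e

/-- The lift of a path which stays near its start. -/
theorem HT.of_short (hr : ex r = h (w 0)) (hw : Continuous w)
    (hd : ∀ u, dist (h (w 0)) (h (w u)) < 1) {T : ℝ} (hT : ∀ u, T ≤ u → w u = b) :
    HT h w r (r + dlt h (w 0) b) :=
  ⟨fun u => r + dlt h (w 0) (w u), continuous_const.add (continuous_dlt continuous_const hw hd),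
    fun u => ex_add_dlt hr, by show r + dlt h (w 0) (w 0) = r; rw [dlt_self, add_zero], T,
    fun u hu => by show r + dlt h (w 0) (w u) = _; rw [hT u hu]⟩

/-- Change of the time. -/
theorem HT.comp (H : HT h w r β) (h0 : ∀ u ≤ 0, w u = w 0) {τ : ℝ → ℝ} (hτ : Continuous τ)
    (hτ0 : τ 0 ≤ 0) (hτ1 : ∀ T, ∃ T', ∀ u, T' ≤ u → T ≤ τ u) : HT h (fun u => w (τ u)) r β := by
  obtain ⟨θ, c1, e1, z1, T, t1⟩ := H
  obtain ⟨T', hT'⟩ := hτ1 T
  refine ⟨fun u => θ (τ u), c1.comp hτ, fun u => e1 _, ?_, T', fun u hu => t1 _ (hT' u hu)⟩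
  exact lift_eqOn (isPreconnected_Iic (a := (0:ℝ))) (f := θ) (g := fun _ => r)
    c1.continuousOn continuousOn_const (fun x hx => by
      rw [e1, h0 _ hx, ← e1, z1]) (x₀ := 0) (mem_Iic.2 le_rfl) (by
        rw [z1, sub_self, abs_zero]
        exact one_pos) hτ0

/-- Concatenation. -/
theorem HT.cat (Hv : HT h v r s) (Hw : HT h w s β) (hm : 0 ≤ m) (hv : ∀ u, m ≤ u → v u = v m)
    (hvw : v m = w 0) : HT h (catf m v w) r β := by
  obtain ⟨θ, c1, e1, z1, T, t1⟩ := Hv
  obtain ⟨θ', c2, e2, z2, T', t2⟩ := Hw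
  have hs : ∀ u, m ≤ u → θ u = s := fun u hu => lift_right c1 e1 t1 hv hu
  refine ⟨fun u => if u ≤ m then θ u else θ' (u - m), ?_, fun u => ?_, ?_, max m (T' + m) + 1,
    fun u hu => ?_⟩
  · refine Continuous.if_le c1 (c2.comp (continuous_id.sub continuous_const)) continuous_id
      continuous_const fun u hu => ?_
    rw [hu, hs m le_rfl, sub_self, z2]
  · show ex (if u ≤ m then θ u else θ' (u - m)) = h (if u ≤ m then v u else w (u - m))
    split_ifs
    · exact e1 u
    · exact e2 _
  · show (if (0:ℝ) ≤ m then θ 0 else θ' (0 - m)) = r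
    rw [if_pos hm, z1]
  · have h1 := le_max_left m (T' + m)
    have h2 := le_max_right m (T' + m)
    show (if u ≤ m then θ u else θ' (u - m)) = β
    rw [if_neg (by linarith), t2 _ (by linarith)]

/-- The reversed path. -/
theorem HT.rev (H : HT h v r s) (h0 : ∀ u ≤ 0, v u = v 0) (hm : ∀ u, m ≤ u → v u = v m) :
    HT h (fun u => v (m - u)) s r := by
  obtain ⟨θ, c1, e1, z1, T, t1⟩ := H
  have hs : θ m = s := lift_right c1 e1 t1 hm le_rfl
  have hr : ∀ u ≤ 0, θ u = r := fun u hu => lift_left c1 e1 z1 h0 hu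
  exact ⟨fun u => θ (m - u), c1.comp (continuous_const.sub continuous_id), fun u => e1 _,
    by show θ (m - 0) = s; rw [sub_zero, hs], m, fun u hu => hr _ (by linarith)⟩

/-! ### Existence -/

/-- Lifts exist; their height variation is bounded. -/
theorem exists_HT [CompactSpace M] (h : C(M, Circle)) (t : ℝ) : ∃ C : ℝ, 0 ≤ C ∧
    ∀ (w : ℝ → M) (b : M) (β : ℝ), Lip w → (∀ u ≤ 0, w u = w 0) → (∀ u, t ≤ u → w u = b) →
      ex β = h b → ∃ r, HT h w r β ∧ |r - β| ≤ C := by
  obtain ⟨δ, hδ, hd⟩ := exists_h1 h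
  obtain ⟨t', ht'⟩ : ∃ t', t' = max t 0 := ⟨_, rfl⟩
  have ht0 : 0 ≤ t' := ht' ▸ le_max_right _ _
  obtain ⟨N, hN⟩ := exists_nat_gt (t' / δ)
  have hN0 : (0:ℝ) < N := (by positivity : 0 ≤ t' / δ).trans_lt hN
  refine ⟨N * (1 / 4), by positivity, fun w b β hw h0 h1 hb => ?_⟩
  set c : ℝ → ℝ := fun u => max 0 (min u t') with hc
  have hcc : Continuous c := continuous_const.max (continuous_id.min continuous_const)
  have hc0 : ∀ u, 0 ≤ c u := fun u => le_max_left _ _
  have hct : ∀ u, c u ≤ t' := fun u => max_le ht0 (min_le_right _ _)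
  have hwc : ∀ u, w (c u) = w u := by
    intro u
    rcases le_total u 0 with hu | hu
    · have : c u = 0 := by
        rw [hc]
        exact max_eq_left ((min_le_left _ _).trans hu)
      rw [this, h0 u hu]
    · rcases le_total u t' with hu' | hu'
      · have : c u = u := by
          rw [hc]
          show max 0 (min u t') = u
          rw [min_eq_left hu', max_eq_right hu]
        rw [this]
      · have : c u = t' := by
          rw [hc]
          show max 0 (min u t') = t'
          rw [min_eq_right hu', max_eq_right ht0]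
        have ht1 : t ≤ t' := ht' ▸ le_max_left _ _
        rw [this, h1 _ ht1, h1 u (ht1.trans hu')]
  set q : ℕ → ℝ → ℝ := fun i u => t' - (t' - c u) * (i / N) with hq
  have hqc : ∀ i, Continuous (q i) := fun i =>
    continuous_const.sub ((continuous_const.sub hcc).mul continuous_const)
  have hq0 : ∀ u, q 0 u = t' := fun u => by
    show t' - (t' - c u) * (((0 : ℕ) : ℝ) / N) = t'
    rw [Nat.cast_zero, zero_div, mul_zero, sub_zero]
  have hqN : ∀ u, q N u = c u := fun u => by
    show t' - (t' - c u) * ((N : ℝ) / N) = c u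
    rw [div_self hN0.ne', mul_one]
    ring
  have hqd : ∀ i u, dist (h (w (q i u))) (h (w (q (i + 1) u))) < 1 := by
    intro i u
    refine hd _ _ ((hw _ _).trans ?_)
    have e : q i u - q (i + 1) u = (t' - c u) / N := by
      show t' - (t' - c u) * ((i : ℝ) / N) - (t' - (t' - c u) * (((i + 1 : ℕ) : ℝ) / N)) = _
      push_cast
      field_simp
      ring
    rw [e, abs_of_nonneg (div_nonneg (by linarith [hct u]) hN0.le), div_le_iff₀ hN0]
    rw [div_lt_iff₀ hδ] at hN
    linarith [hc0 u, mul_comm (N : ℝ) δ]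
  have hwcont := hw.continuous
  set θ : ℕ → ℝ → ℝ := fun j u => β + ∑ i ∈ Finset.range j, dlt h (w (q i u)) (w (q (i + 1) u))
    with hθ
  have hθc : ∀ j, Continuous (θ j) := fun j =>
    continuous_const.add (continuous_finset_sum _ fun i _ =>
      continuous_dlt (hwcont.comp (hqc i)) (hwcont.comp (hqc (i + 1))) (hqd i))
  have ht1 : t ≤ t' := ht' ▸ le_max_left _ _
  have hθe : ∀ j u, ex (θ j u) = h (w (q j u)) := by
    intro j
    induction j with
    | zero =>
      intro u
      show ex (β + ∑ i ∈ Finset.range 0, _) = _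
      rw [Finset.range_zero, Finset.sum_empty, add_zero, hq0, h1 _ ht1, hb]
    | succ j ih =>
      intro u
      have : θ (j + 1) u = θ j u + dlt h (w (q j u)) (w (q (j + 1) u)) := by
        show β + ∑ i ∈ Finset.range (j + 1), _ = _
        rw [Finset.sum_range_succ, ← add_assoc]
      rw [this]
      exact ex_add_dlt (ih u)
  have hθb : ∀ u, |θ N u - β| ≤ N * (1 / 4) := by
    intro u
    show |β + ∑ i ∈ Finset.range N, dlt h (w (q i u)) (w (q (i + 1) u)) - β| ≤ _
    rw [add_sub_cancel_left]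
    refine (Finset.abs_sum_le_sum_abs _ _).trans ?_
    refine (Finset.sum_le_card_nsmul _ _ (1 / 4) fun i _ => (abs_dlt_lt (hqd i u)).le).trans ?_
    rw [Finset.card_range, nsmul_eq_mul]
  refine ⟨θ N 0, ⟨θ N, hθc N, fun u => ?_, rfl, t', fun u hu => ?_⟩, hθb 0⟩
  · rw [hθe, hqN, hwc]
  · have hcu : c u = t' := by
      rw [hc]
      show max 0 (min u t') = t'
      rw [min_eq_right hu, max_eq_right ht0]
    have hqi : ∀ i, q i u = t' := fun i => by
      show t' - (t' - c u) * ((i : ℝ) / N) = t'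
      rw [hcu, sub_self, zero_mul, sub_zero]
    show β + ∑ i ∈ Finset.range N, dlt h (w (q i u)) (w (q (i + 1) u)) = β
    rw [Finset.sum_eq_zero fun i _ => by rw [hqi, hqi, dlt_self], add_zero]

end Vale.Agent.P216.H456Z
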