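import Vale.Agent.P216.H456Z.Ht
import Vale.Agent.P216.H971Z.Frame
import Vale.Agent.P216.H808.Z10Props

/-!
# P216-B7, row Z10, (G0): heights, in the frame of `H971Z/Frame.lean` (`Lf`, `PZ`, `XZ`)
-/

set_option linter.all false

open Set Filter Topology BoundedContinuousFunction

namespace Vale.Agent.P216.H456Z

end Vale.Agent.P216.H456Z

namespace Vale.Agent.P216.H971Z

open Vale.Agent.P216.B7 Vale.Agent.P216.PS Vale.Agent.P216.H456Z

variable {M : Type} [MetricSpace M] {h : C(M, Circle)} {x y a b c : M} {r s r' s' β m m' t t' : ℝ}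
  {v w w' : ℝ → M}

/-! ### `Lf` and `HT` -/

theorem Lf.toHT (H : Lf h m r s w) : HT h w r s := by
  obtain ⟨θ, h1, h2, h3, h4⟩ := H
  exact ⟨θ, h1, fun u => (h2 u).symm, h3 0 le_rfl, m, h4⟩

theorem HT_lf (H : HT h w r s) (h0 : ∀ u ≤ 0, w u = w 0) (hm : ∀ u, m ≤ u → w u = w m) :
    Lf h m r s w := by
  obtain ⟨θ, c1, e1, z1, T, t1⟩ := H
  exact ⟨θ, c1, fun u => (e1 u).symm, fun u hu => lift_left c1 e1 z1 h0 hu,
    fun u hu => lift_right c1 e1 t1 hm hu⟩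

theorem Lf.ex0 (H : Lf h m r s w) : ex r = h (w 0) := H.toHT.mem

theorem Lf.ex1 (H : Lf h m r s w) : ex s = h (w m) := by
  obtain ⟨θ, h1, h2, h3, h4⟩ := H
  rw [h2, h4 m le_rfl]

/-- The start height is unique. -/
theorem Lf.uniq (H : Lf h m r s w) (H' : Lf h m' r' s w) : r = r' := H.toHT.unique H'.toHT

/-- The end height is unique. -/
theorem Lf.uniqEnd (H : Lf h m r s w) (H' : Lf h m' r s' w) : s = s' := H.toHT.unique' H'.toHT

theorem Lf.addInt (H : Lf h m r s w) (n : ℤ) : Lf h m (r + n) (s + n) w := by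
  obtain ⟨θ, h1, h2, h3, h4⟩ := H
  refine ⟨fun u => θ u + n, h1.add continuous_const, fun u => ?_, fun u hu => ?_, fun u hu => ?_⟩
  · rw [ex_add, ex_int, mul_one, h2]
  · show θ u + n = _
    rw [h3 u hu]
  · show θ u + n = _
    rw [h4 u hu]

/-- If the ends agree modulo integers, then the difference of the heights determines the lift. -/
theorem Lf.ofSub (H : Lf h m r s w) (hr : ex r' = h (w 0)) (e : s' - s = r' - r) :
    Lf h m r' s' w := by
  obtain ⟨n, hn⟩ := ex_eq (hr.trans H.ex0.symm)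
  have h1 := H.addInt n
  have h2 : s' = s + n := by linarith
  rwa [← hn, ← h2] at h1

theorem Lf.congrF (H : Lf h m r s w) (e : ∀ u, w' u = w u) : Lf h m r s w' := by
  have : w' = w := funext e
  rwa [this]

theorem Lf.cst (hb : ex s = h b) : Lf h m s s (fun _ => b) :=
  ⟨fun _ => s, continuous_const, fun _ => hb.symm, fun _ _ => rfl, fun _ _ => rfl⟩

theorem Lf.catf (Hv : Lf h m r s v) (Hw : Lf h t s β w) (hm : 0 ≤ m) (ht : 0 ≤ t)
    (hv : ∀ u, m ≤ u → v u = v m) (hv0 : ∀ u ≤ 0, v u = v 0) (hw : ∀ u, t ≤ u → w u = w t)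
    (hvw : v m = w 0) : Lf h (m + t) r β (catf m v w) := by
  refine HT_lf (Hv.toHT.cat Hw.toHT hm hv hvw) (fun u hu => ?_) fun u hu => ?_
  · rw [catf_left (hu.trans hm), catf_left hm, hv0 u hu]
  · rw [catf_right hvw (by linarith), catf_right hvw (by linarith), hw _ (by linarith),
      hw (m + t - m) (by linarith)]

theorem Lf.reverse (H : Lf h m r s v) : Lf h m s r (fun u => v (m - u)) := by
  obtain ⟨θ, h1, h2, h3, h4⟩ := H
  exact ⟨fun u => θ (m - u), h1.comp (continuous_const.sub continuous_id), fun u => h2 _,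
    fun u hu => h4 _ (by linarith), fun u hu => h3 _ (by linarith)⟩

/-- Change of the time. -/
theorem Lf.time (H : Lf h m r s w) {τ : ℝ → ℝ} (hτ : Continuous τ) (h0 : ∀ u ≤ 0, τ u ≤ 0)
    (h1 : ∀ u, m' ≤ u → m ≤ τ u) : Lf h m' r s (fun u => w (τ u)) := by
  obtain ⟨θ, c1, h2, h3, h4⟩ := H
  exact ⟨fun u => θ (τ u), c1.comp hτ, fun u => h2 _, fun u hu => h3 _ (h0 u hu),
    fun u hu => h4 _ (h1 u hu)⟩

/-- Paths which are near everywhere. -/
theorem Lf.near (H : Lf h m r s w) (hw : Continuous w) (hw' : Continuous w')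
    (hd : ∀ u, dist (h (w u)) (h (w' u)) < 1) (h0 : ∀ u ≤ 0, w' u = w' 0) (h0' : ∀ u ≤ 0, w u = w 0)
    (hm : ∀ u, m ≤ u → w' u = w' m) (hm' : ∀ u, m ≤ u → w u = w m) :
    Lf h m (r + dlt h (w 0) (w' 0)) (s + dlt h (w m) (w' m)) w' := by
  obtain ⟨θ, c1, h2, h3, h4⟩ := H
  refine ⟨fun u => θ u + dlt h (w u) (w' u), c1.add (continuous_dlt hw hw' hd),
    fun u => (ex_add_dlt (h2 u).symm).symm, fun u hu => ?_, fun u hu => ?_⟩
  · show θ u + dlt h (w u) (w' u) = _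
    rw [h3 u hu, h0 u hu, h0' u hu]
  · show θ u + dlt h (w u) (w' u) = _
    rw [h4 u hu, hm u hu, hm' u hu]

/-- Short paths. -/
theorem Lf.shortEnd (H : Lf h m r s w) (hw : Continuous w) (hm : ∀ u, m ≤ u → w u = b)
    (hd : ∀ u, dist (h (w 0)) (h (w u)) < 1) : s = r + dlt h (w 0) b :=
  H.toHT.short hw hd hm

theorem Lf.ofShort (hr : ex r = h (w 0)) (hw : Continuous w)
    (hd : ∀ u, dist (h (w 0)) (h (w u)) < 1) (h0 : ∀ u ≤ 0, w u = w 0)
    (hm : ∀ u, m ≤ u → w u = w m) : Lf h m r (r + dlt h (w 0) (w m)) w :=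
  HT_lf (HT.of_short hr hw hd hm) h0 hm

end Vale.Agent.P216.H971Z

namespace Vale.Agent.P216.H456Z

variable {M : Type} [MetricSpace M] {h : C(M, Circle)} {x y a b c : M} {r s r' s' β m m' t t' : ℝ}
  {v w w' : ℝ → M}

open Vale.Agent.P216.B7 Vale.Agent.P216.PS Vale.Agent.P216.H971Z
open Vale.Agent.P216.H456 (PF)

/-! ### Existence, modulus -/

section compact

variable [CompactSpace M]

/-- Lifts with a given end exist; the height variation is bounded by a constant `C t`. -/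
theorem exists_lf (h : C(M, Circle)) (t : ℝ) : ∃ C : ℝ, 0 ≤ C ∧
    ∀ (a b : M) (w : ℝ →ᵇ M) (β : ℝ), w ∈ P a b t → ex β = h b →
      ∃ r, Lf h t r β w ∧ |r - β| ≤ C := by
  obtain ⟨C, hC, H⟩ := exists_HT h t
  refine ⟨C, hC, fun a b w β hw hb => ?_⟩
  obtain ⟨r, h1, h2⟩ := H w b β hw.1 (fun u hu => by rw [eq_left hw hu, eq_left hw le_rfl])
    (fun u hu => eq_right hw hu) hb
  exact ⟨r, HT_lf h1 (fun u hu => by rw [eq_left hw hu, eq_left hw le_rfl])
    fun u hu => by rw [eq_right hw hu, eq_right hw le_rfl], h2⟩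

/-- Lifts with a given start exist. -/
theorem exists_lf' (h : C(M, Circle)) (t : ℝ) : ∃ C : ℝ, 0 ≤ C ∧
    ∀ (a b : M) (w : ℝ →ᵇ M) (r : ℝ), w ∈ P a b t → ex r = h a →
      ∃ β, Lf h t r β w ∧ |r - β| ≤ C := by
  obtain ⟨C, hC, H⟩ := exists_lf h t
  refine ⟨C, hC, fun a b w r hw hr => ?_⟩
  have hp : ex (Complex.arg (h b) / (2 * Real.pi)) = h b := by
    rw [ex, mul_div_cancel₀ _ (by positivity)]
    exact Circle.exp_arg _
  obtain ⟨r', h1, h2⟩ := H a b w _ hw hp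
  have h3 : ex r = h (w 0) := by rw [eq_left hw le_rfl, hr]
  obtain ⟨n, hn⟩ := ex_eq (h3.trans h1.ex0.symm)
  refine ⟨_, h1.ofSub (s' := Complex.arg (h b) / (2 * Real.pi) + n) h3 (by rw [hn]; ring), ?_⟩
  rw [hn, show r' + n - (Complex.arg (h b) / (2 * Real.pi) + n) =
    r' - Complex.arg (h b) / (2 * Real.pi) by ring]
  exact h2

/-- **The modulus** does not depend on the time: `r' = r + dlt (w 0) (w' 0)`. -/
theorem lf_dlt {w w' : ℝ →ᵇ M} (h1 : w ∈ PF b t) (h1' : w' ∈ PF b t') (H : Lf h t r β w)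
    (H' : Lf h t' r' β w') (hd : ∀ u, dist (h (w u)) (h (w' u)) < 1) :
    r' = r + dlt h (w 0) (w' 0) :=
  H'.toHT.unique (H.toHT.close w.continuous w'.continuous hd (T := max t t') fun u hu => by
    rw [h1.2.2 u ((le_max_left _ _).trans hu), h1'.2.2 u ((le_max_right _ _).trans hu)])

/-- **The modulus**. -/
theorem lf_modulus (h : C(M, Circle)) {ε : ℝ} (hε : 0 < ε) : ∃ δ > 0, ∀ (b : M) (t t' β r r' : ℝ)
    (w w' : ℝ →ᵇ M), w ∈ PF b t → w' ∈ PF b t' → Lf h t r β w → Lf h t' r' β w' →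
      dist w w' ≤ δ → |r' - r| < ε := by
  obtain ⟨δ, hδ, H⟩ := dlt_small h hε
  refine ⟨δ, hδ, fun b t t' β r r' w w' h1 h2 h3 h4 hd => ?_⟩
  have h5 : ∀ u, dist (w u) (w' u) ≤ δ := fun u =>
    (BoundedContinuousFunction.dist_coe_le_dist u).trans hd
  rw [lf_dlt h1 h2 h3 h4 fun u => (H _ _ (h5 u)).1, add_sub_cancel_left]
  exact (H _ _ (h5 0)).2

/-- **The heights of a continuous family of paths to `b` are continuous.** -/
theorem continuous_lf {Z : Type} [TopologicalSpace Z] {W : Z → ℝ →ᵇ M} {r : Z → ℝ}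
    (hW : Continuous W) (hP : ∀ z, W z ∈ PF b t) (hr : ∀ z, Lf h t (r z) β (W z)) :
    Continuous r := by
  rw [continuous_iff_continuousAt]
  intro z
  rw [Metric.continuousAt_iff']
  intro ε hε
  obtain ⟨δ, hδ, H⟩ := lf_modulus h hε
  have h1 := (Metric.continuousAt_iff'.1 (continuous_iff_continuousAt.1 hW z)) δ hδ
  filter_upwards [h1] with z' hz'
  rw [Real.dist_eq]
  exact H b t t β _ _ _ _ (hP z) (hP z') (hr z) (hr z') (by rw [dist_comm]; exact hz'.le)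

/-- **The sheet of a continuous family**: if all starting points are near `x` and one height is
near `rx`, then all heights are `rx + dlt x (start)`. -/
theorem sheet_family {Z : Type} [TopologicalSpace Z] [PreconnectedSpace Z] {W : Z → ℝ →ᵇ M}
    {r : Z → ℝ} (hW : Continuous W) (hP : ∀ z, W z ∈ PF b t) (hr : ∀ z, Lf h t (r z) β (W z))
    {x : M} {rx : ℝ} (hx : ex rx = h x) (hd : ∀ z, dist (h x) (h (W z 0)) < 1) {z₀ : Z}
    (h0 : |r z₀ - rx| < 3 / 4) (z : Z) : r z = rx + dlt h x (W z 0) := by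
  refine lift_eq (f := r) (g := fun z => rx + dlt h x (W z 0)) (continuous_lf hW hP hr)
    (continuous_const.add (continuous_dlt continuous_const
    ((continuous_eval_const (0 : ℝ)).comp hW) hd)) (fun z => ?_) (x₀ := z₀) ?_ z
  · show ex (r z) = ex (rx + dlt h x (W z 0))
    rw [(hr z).ex0, ex_add_dlt hx]
  · show |r z₀ - (rx + dlt h x (W z₀ 0))| < 1
    rw [sheet hx (hr z₀).ex0 (hd z₀) h0, sub_self, abs_zero]
    exact one_pos

/-! ### `PZ` and `XZ` -/

/-- `PZ h p p' t` is a union of path components of `P p.1 p'.1 t`. -/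
theorem PZ_of_joined {p p' : M × ℝ} {w w' : ℝ →ᵇ M} (hw : w ∈ PZ h p p' t)
    (hj : JoinedIn (P p.1 p'.1 t) w w') : JoinedIn (PZ h p p' t) w w' := by
  obtain ⟨γ, hγ⟩ := hj
  have hb : ex p'.2 = h p'.1 := by
    have := hw.2.ex1
    rwa [eq_right hw.1 le_rfl] at this
  obtain ⟨C, -, H⟩ := exists_lf h t
  choose r hr using fun z => H _ _ (γ z) p'.2 (hγ z) hb
  have hc := continuous_lf (W := γ) (b := p'.1) (t := t) γ.continuous
    (fun z => H456.P_subset_PF (hγ z)) fun z => (hr z).1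
  have h1 : ∀ z, r z = p.2 := by
    intro z
    refine lift_eq hc (g := fun _ => p.2) continuous_const (fun z => ?_) (x₀ := 0) ?_ z
    · rw [(hr z).1.ex0, hw.2.ex0, eq_left (hγ z) le_rfl, eq_left hw.1 le_rfl]
    · have h2 : Lf h t (r 0) p'.2 w := by
        have := (hr 0).1
        rwa [γ.source] at this
      rw [h2.uniq hw.2, sub_self, abs_zero]
      exact one_pos
  refine ⟨γ, fun z => ⟨hγ z, ?_⟩⟩
  have := (hr z).1
  rwa [h1 z] at this

theorem PZ_joined {p p' : M × ℝ} {w w' : ℝ →ᵇ M} (hw : w ∈ PZ h p p' t)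
    (hj : JoinedIn (P p.1 p'.1 t) w w') : w' ∈ PZ h p p' t := (PZ_of_joined hw hj).target_mem

theorem cat_mem_PZ {p p' p'' : M × ℝ} {w w' : ℝ →ᵇ M} (hm : 0 ≤ m) (ht : 0 ≤ t)
    (hw : w ∈ PZ h p p' m) (hw' : w' ∈ PZ h p' p'' t) : PS.cat m w w' ∈ PZ h p p'' (m + t) := by
  have e : w m = w' 0 := by rw [eq_right hw.1 le_rfl, eq_left hw'.1 le_rfl]
  refine ⟨cat_mem hm ht hw.1 hw'.1, ?_⟩
  refine (hw.2.catf hw'.2 hm ht (fun u hu => ?_) (fun u hu => ?_) (fun u hu => ?_) e).congrF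
    fun u => cat_apply hw.1.1 hw'.1.1 e u
  · rw [eq_right hw.1 hu, eq_right hw.1 le_rfl]
  · rw [eq_left hw.1 hu, eq_left hw.1 le_rfl]
  · rw [eq_right hw'.1 hu, eq_right hw'.1 le_rfl]

theorem cst_mem_PZ {p : M × ℝ} (hp : p ∈ Xt h) (t : ℝ) : cst p.1 ∈ PZ h p p t :=
  ⟨cst_mem _ _, Lf.cst hp.symm⟩

theorem revB_mem_PZ {p p' : M × ℝ} {w : ℝ →ᵇ M} (hw : w ∈ PZ h p p' t) :
    mo (fun u => w (t - u)) ∈ PZ h p' p t := by
  have hl : Lip fun u => w (t - u) := by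
    intro u v
    refine (hw.1.1 _ _).trans (le_of_eq ?_)
    rw [show t - u - (t - v) = -(u - v) by ring, abs_neg]
  refine ⟨mo_mem hl (fun u hu => ?_) fun u hu => ?_, hw.2.reverse.congrF fun u => hl.mo_apply u⟩
  · rw [eq_right hw.1 (by linarith)]
  · rw [eq_left hw.1 (by linarith)]

/-- Every path to `p'.1` has a height. -/
theorem exists_mem_XZ {p' : M × ℝ} (hp : p' ∈ Xt h) {w : ℝ →ᵇ M} (hw : w ∈ PF p'.1 t) :
    ∃ r, (w, r) ∈ XZ h p' t := by
  obtain ⟨C, -, H⟩ := exists_lf h t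
  obtain ⟨r, hr, -⟩ := H _ _ w p'.2 (H456.mem_PF_iff.1 hw) hp.symm
  exact ⟨r, hw, hr⟩

theorem stz_mem_Xt {p' : M × ℝ} {z : (ℝ →ᵇ M) × ℝ} (hz : z ∈ XZ h p' t) : stz z ∈ Xt h :=
  hz.2.ex0.symm

/-- **(F1)** the reach. -/
theorem f1Goal : F1Goal M h := by
  intro p' hp t
  obtain ⟨C, hC, H⟩ := exists_lf h t
  refine ⟨|p'.2| + C, fun z hz => ⟨stz_mem_Xt hz, ?_⟩⟩
  obtain ⟨r, h1, h2⟩ := H _ _ z.1 p'.2 (H456.mem_PF_iff.1 hz.1) hp.symm
  have h3 : z.2 = r := hz.2.uniq h1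
  show |z.2| ≤ _
  rw [h3]
  have h4 := abs_sub_abs_le_abs_sub r p'.2
  linarith

end compact

end Vale.Agent.P216.H456Z
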